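import Mathlib
import Vale.Agent.Lib.P064.Defs
import Vale.Agent.Lib.P064.DefsT
import Vale.Agent.Lib.P064.DefsC
import Vale.Agent.Lib.P064.FPc
import Vale.Agent.Lib.P064_helper3.Refined

namespace Vale.Agent.Results.P064.AAAllBounds

open Vale.Agent.Lib.P064

/-- All our bounds for the second Kahn-Kalai problem in one statement. For all `n ≥ 2` and EVERY
graph `H` on `n` vertices:
(1) `p_c ≤ 1100 p_E log^2 (4 e(H))`;
(2) `p_c ≤ 32768 p_E log^2 n`;
(3) `p~_E ≤ 64 p_E log n`;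
(4) if `H` is a forest then `p_c ≤ C p_E log n` (the bound of Q1). -/
theorem result : ∀ (n : ℕ) (H : SimpleGraph (Fin n)), 2 ≤ n →
    pc H ≤ 1100 * pE H * (Real.log (4 * (numEdges H : ℝ))) ^ 2 ∧
    pc H ≤ 32768 * pE H * (Real.log n) ^ 2 ∧
    pTilde H ≤ 64 * pE H * Real.log n ∧
    (H.IsAcyclic → pc H ≤ 25165824 * Real.exp 9 * pE H * Real.log n) := by
  intro n H hn
  exact ⟨pc_le_pE_log_sq_edges H, pc_le_pE_log_sq hn H, pTilde_le_pE_log hn H,
    fun hH => pc_le_pE_log hn H hH⟩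

end Vale.Agent.Results.P064.AAAllBounds
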